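import Vale.Agent.P235.K5.H320.NDefs
import Vale.Agent.P235.K5.H332.Coup
import Vale.Agent.P235.K5.H439.Proc
import Vale.Agent.P235.H957.Laws

/-!
# K5, row [N-OUT]: from the slots to the laws of the torsos with fresh couplings
-/

namespace Vale.Agent.P235.K5.H320

open Finset Vale.Agent.P235.K5 Vale.Agent.P235.K5.H439

section

variable {n T k L : ℕ} {Z : Tor n T k} {d : Fin n → Fin n → ℝ}
  {η : Fin T → Fin L → Fin n → ℝ} {X : Fin T → Fin n → Fin n → ℝ}

/-- the largest difference over the slots at all ancestors of `t` -/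
noncomputable def dt (Z : Tor n T k) (η : Fin T → Fin L → Fin n → ℝ) (t : Fin T)
    (p q : Fin n) : ℝ :=
  ⨆ x : {x : Fin T × Fin L // Z.tree.Desc x.1 t}, |η x.1.1 x.1.2 p - η x.1.1 x.1.2 q|

theorem dt_nonneg (t : Fin T) (p q : Fin n) : 0 ≤ dt Z η t p q :=
  Real.iSup_nonneg fun _ => abs_nonneg _

theorem le_dt {b t : Fin T} (h : Z.tree.Desc b t) (j : Fin L) (p q : Fin n) :
    |η b j p - η b j q| ≤ dt Z η t p q :=
  le_ciSup (f := fun x : {x : Fin T × Fin L // Z.tree.Desc x.1 t} =>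
    |η x.1.1 x.1.2 p - η x.1.1 x.1.2 q|) (Set.finite_range _).bddAbove ⟨(b, j), h⟩

theorem dt_le {t : Fin T} {p q : Fin n} {c : ℝ} (hc : 0 ≤ c)
    (h : ∀ b, Z.tree.Desc b t → ∀ j, |η b j p - η b j q| ≤ c) : dt Z η t p q ≤ c :=
  Real.iSup_le (fun x => h x.1.1 x.2 x.1.2) hc

theorem dt_mono (t : Fin T) (p q : Fin n) : dt Z η (Z.up t) p q ≤ dt Z η t p q :=
  dt_le (dt_nonneg t p q) fun _ hb j =>
    le_dt (H684.Elim.Desc.par (E := Z.tree) hb) j p q

theorem path_lt {s : ℕ → Fin T} {N : ℕ} (hp : H684.Path Z.tree s N) {i : ℕ} (hi : i < N) :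
    (s i : ℕ) < (s (i + 1) : ℕ) := by
  have h1 : Z.up (s (i + 1)) = s i := hp.par i hi
  have h2 := hp.ne i hi
  have h3 := Z.up_le (s (i + 1))
  rw [h1] at h3
  have h4 : s i < s (i + 1) := lt_of_le_of_ne h3 h2
  exact h4

theorem path_le {s : ℕ → Fin T} {N : ℕ} (hp : H684.Path Z.tree s N) :
    ∀ i ≤ N, i ≤ (s i : ℕ) := by
  intro i
  induction i with
  | zero => intro _; exact Nat.zero_le _
  | succ i ih =>
    intro hi
    have h1 := ih (by omega)
    have h2 := path_lt hp (i := i) (by omega)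
    omega

theorem path_desc {s : ℕ → Fin T} {N : ℕ} (hp : H684.Path Z.tree s N) {i : ℕ} (h1 : 1 ≤ i)
    (hi : i ≤ N) : Z.tree.Desc (s 1) (s i) := hp.desc h1 hi

theorem path_up {s : ℕ → Fin T} {N : ℕ} (hp : H684.Path Z.tree s N) {i : ℕ} (hi : i < N) :
    Z.up (s (i + 1)) ≠ s (i + 1) := by
  have h1 : Z.up (s (i + 1)) = s i := hp.par i hi
  rw [h1]
  exact hp.ne i hi

theorem S_ne (hd : Z.Sep d) {t : Fin T} (ht : Z.up t ≠ t) : (Z.S t).Nonempty := by
  obtain ⟨p, hp⟩ := Z.surj t
  obtain ⟨q, hq⟩ := Z.surj (Z.up t)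
  have h1 : Z.Below t p := by
    show Z.tree.Desc t (Z.tor p)
    rw [hp]; exact H684.Elim.Desc.refl _ _
  have h2 : ¬ Z.Below t q := by
    intro h
    have h3 : t ≤ Z.tor q := H684.Elim.Desc.le h
    rw [hq] at h3
    exact ht (le_antisymm (Z.up_le t) h3)
  obtain ⟨a, ha, _⟩ := hd.sep t p q h1 h2
  exact ⟨a, ha⟩

/-- the chain of environments along a path of torsos -/
noncomputable def chainOf {C : Fin T → Fin n → Fin n → ℝ} {κ ε : ℝ}
    (R : BProc (Fin T) (Fin n) (dt Z η) Z.up (fun t => Z.up t = t) Z.S C κ ε)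
    (hd : Z.Sep d) {s : ℕ → Fin T} {N : ℕ} (hp : H684.Path Z.tree s N) :
    H332.Chain.{0, 0} (Fin n) N where
  Ω := fun _ => R.O
  fin := fun _ => R.fO
  P := fun i => R.P (s i)
  Q := fun i => R.Q (s (i + 1))
  g := fun i => R.g (s i)
  A := fun i => Z.S (s i)
  B := fun i => if i = 0 then Z.S (s 1) else Z.H (s i)
  P_nonneg := fun i ω => R.P_nonneg _ _
  P_sum := fun i => R.P_sum _
  Q_nonneg := fun i ω ω' => R.Q_nonneg _ _ _
  Q_left := fun i hi ω => by
    rw [R.Q_left _ (path_up hp hi)]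
    have h1 : Z.up (s (i + 1)) = s i := hp.par i hi
    rw [h1]
  Q_right := fun i hi ω' => R.Q_right _ (path_up hp hi) ω'
  A_sub := fun i hi => by
    by_cases h : i = 0
    · rw [if_pos h, h]
    · rw [if_neg h]
      intro a ha
      have h1 : Z.up (s (i + 1)) = s i := hp.par i hi
      unfold Tor.H
      rw [mem_union, mem_filter]
      rcases Z.sub _ a ha with h2 | h2
      · left; rwa [h1] at h2
      · right; exact ⟨mem_univ _, by rw [h2, h1]⟩
  A_sub' := fun i hi => by
    rw [if_neg (Nat.succ_ne_zero i)]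
    exact subset_union_left
  A_ne := fun i hi => S_ne hd (path_up hp hi)
  ce := fun i hi a ha ω' => by
    have h := R.ce (s (i + 1)) (path_up hp hi) a ha ω'
    have h1 : Z.up (s (i + 1)) = s i := hp.par i hi
    rw [h1] at h
    exact h
  ord := fun i hi a ha b hb ω' => by
    have h := fun o hQ => R.ord (s (i + 1)) (path_up hp hi) o ω' hQ a ha b hb
    have h' := fun o hQ => R.ord (s (i + 1)) (path_up hp hi) o ω' hQ b hb a ha
    have h1 : Z.up (s (i + 1)) = s i := hp.par i hi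
    rw [h1] at h h'
    rcases le_total (R.g (s (i + 1)) ω' a) (R.g (s (i + 1)) ω' b) with h2 | h2
    · exact Or.inl fun o ho => (h o ho.ne').mpr h2
    · exact Or.inr fun o ho => (h' o ho.ne').mpr h2

/-- the capture function of the process -/
noncomputable def Cf (Z : Tor n T k) (X : Fin T → Fin n → Fin n → ℝ) (t : Fin T)
    (p q : Fin n) : ℝ := by
  classical exact if p ∈ Z.H t ∧ q ∈ Z.S t then 1 / 62 * X t q p else 0

theorem nlaw_of {κ ε : ℝ} (hd : Z.Sep d) (hs : Slots Z d L η X) (hκ : 0 < κ) {kk : ℕ}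
    (hkk : 0 < kk) (hk : k ≤ kk)
    (hη : kk * ε ≤ H926.PathChain.thSeq kk (kk - 1) / 4)
    (R : BProc (Fin T) (Fin n) (dt Z η) Z.up (fun t => Z.up t = t) Z.S (Cf Z X) κ ε) :
    Z.NLaw d (H926.PathChain.C1 kk (κ / 62)) := by
  classical
  obtain ⟨G, hG0, hG⟩ := R.exists_bound
  set K : ℝ := G * (2 * T + 1) with hKdef
  have hn0 : (0 : ℝ) ≤ T := Nat.cast_nonneg T
  have hGK : G ≤ K := by
    rw [hKdef]
    nlinarith
  have hK : 0 < K := lt_of_lt_of_le hG0 hGK
  have hgK : ∀ t o p, |R.g t o p| ≤ K := fun t o p => (hG t o p).trans hGK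
  have hκ' : 0 < κ / 62 := by positivity
  have hC1 : 0 < H926.PathChain.C1 kk (κ / 62) := H926.PathChain.C1_pos hkk hκ'
  have hdn : ∀ p q, 0 ≤ d p q := by
    intro p q
    rcases eq_or_ne p q with e | e
    · rw [e, hd.self]
    · exact (hd.pos p q e).le
  have hdt : ∀ t p q, dt Z η t p q ≤ d p q := fun t p q =>
    dt_le (hdn p q) fun b _ j => hs.lip b j p q
  have hmean : ∀ t p q, ∑ o, R.P t o * |R.g t o p - R.g t o q| ≤ dt Z η t p q / 2 := fun t p q =>
    R.mean_abs (fun t p q => dt_nonneg t p q) t p q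
  refine ⟨fun t => H957.lawOf K (R.P t) (R.g t), 2 * K, by positivity, fun t =>
    H957.lawOf_isLaw hK (R.P_nonneg t) (R.P_sum t) (R.g t), ?_, ?_, ?_⟩
  · -- consistency
    intro t ht h hh
    show H684.Ex (H957.lawOf K (R.P t) (R.g t)) h =
      H684.Ex (H957.lawOf K (R.P (Z.up t)) (R.g (Z.up t))) h
    rw [H957.Ex_lawOf, H957.Ex_lawOf]
    refine (H957.mu_step (Q := R.Q t) (R.Q_nonneg t) (R.Q_left t ht) (R.Q_right t ht)
      (fun o' a ha => R.ce t ht a ha o') ?_ (fun o a _ => hgK _ _ _) hh).symm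
    intro o' a ha b hb
    rcases le_total (R.g t o' a) (R.g t o' b) with h2 | h2
    · exact Or.inl fun o ho => (R.ord t ht o o' ho.ne' a ha b hb).mpr h2
    · exact Or.inr fun o ho => (R.ord t ht o o' ho.ne' b hb a ha).mpr h2
  · -- the pairs in a torso
    intro t p hp p' hp'
    have hEx : 2 * K * H684.Ex (H957.lawOf K (R.P t) (R.g t)) (H684.dif p p') =
        ∑ o, R.P t o * |R.g t o p - R.g t o p'| := by
      rw [H957.Ex_lawOf]
      have h1 := H957.mu_ne (R.P t) (g := R.g t) (p := p) (q := p') (fun o => hgK t o p)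
        (fun o => hgK t o p')
      have h2 : (H684.dif p p' : (Fin n → Bool) → ℝ) = fun X => if X p = X p' then 0 else 1 := rfl
      rw [h2, h1]
      field_simp
    show 2 * K * H684.Ex (H957.lawOf K (R.P t) (R.g t)) (H684.dif p p') ≤ d p p'
    rw [hEx]
    have h1 := hmean t p p'
    have h2 := hdt t p p'
    have h3 := hdn p p'
    linarith
  · -- the couplings
    intro s N hp z hz r _ hr
    have hBne : (Z.S (s 1)).Nonempty := S_ne hd (path_up hp hp.pos)
    set rr : Fin n → ℝ := fun v => (Z.S (s 1)).inf' hBne fun a => d v a with hrr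
    have hNn : N ≤ T := by
      have := path_le hp N le_rfl
      have h2 := (s N).2
      omega
    have hNn' : (N : ℝ) ≤ T := by exact_mod_cast hNn
    have hB : ∀ i, (chainOf R hd hp).B (i + 1) = Z.H (s (i + 1)) := fun i => by
      show (if i + 1 = 0 then Z.S (s 1) else Z.H (s (i + 1))) = _
      rw [if_neg (Nat.succ_ne_zero i)]
    have hB0 : (chainOf R hd hp).B 0 = Z.S (s 1) := by
      show (if 0 = 0 then Z.S (s 1) else Z.H (s 0)) = _
      rw [if_pos rfl]
    have hcardA : ∀ i < N, ((chainOf R hd hp).A (i + 1)).card ≤ kk := fun i _ =>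
      (Z.card _).trans hk
    have hzH : z ∈ (chainOf R hd hp).B N := by
      obtain ⟨N', rfl⟩ : ∃ N', N = N' + 1 := ⟨N - 1, by have := hp.pos; omega⟩
      rw [hB]
      unfold Tor.H
      rw [mem_union, mem_filter]
      exact Or.inr ⟨mem_univ _, hz⟩
    obtain ⟨Om', hf, P', Y, h1, h2, h3, h4⟩ := H332.coupling_fresh (chainOf R hd hp) (G := G)
      (K := K) hK (fun i _ ω p _ => hG _ _ _) hG0.le (by rw [hKdef]; nlinarith) hkk hκ' hη
      (r := rr) (d := fun i z a => X (s i) a z) hcardA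
      (by
        intro v hv
        rw [hB0] at hv
        rw [hrr]
        refine (inf'_le _ hv).trans ?_
        rw [hd.self])
      (by
        intro i hi z hz' _ a ha
        rw [hB] at hz'
        have hdesc : Z.tree.Desc (s 1) (s (i + 1)) := path_desc hp (by omega) hi
        obtain ⟨b, hb, hb'⟩ := exists_mem_eq_inf' hBne fun b => d a b
        have h5 : rr a = d a b := hb'
        obtain ⟨b', hb1, hb2⟩ := hs.rad (s 1) (s (i + 1)) hdesc z hz' a ha b hb
        rw [h5]
        exact (inf'_le _ hb1).trans hb2)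
      (fun i hi z hz' _ a ha => hs.nonneg _ z (by rw [hB] at hz'; exact hz') a ha)
      (fun i hi z hz' _ a ha => by
        rw [hB] at hz'
        have h5 := hmean (s (i + 1)) z a
        have h6 : dt Z η (s (i + 1)) z a ≤ X (s (i + 1)) a z :=
          dt_le (hs.nonneg _ z hz' a ha) fun b hb j => hs.hat b _ hb j z hz' a ha
        have h7 := hs.nonneg _ z hz' a ha
        show ∑ ω, R.P (s (i + 1)) ω * |R.g (s (i + 1)) ω z - R.g (s (i + 1)) ω a| ≤
          X (s (i + 1)) a z
        linarith)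
      (fun i hi z hz' _ a ha => by
        rw [hB] at hz'
        have h5 := R.ac (s (i + 1)) z a
        have h6 : κ * Cf Z X (s (i + 1)) z a = κ / 62 * X (s (i + 1)) a z := by
          unfold Cf
          rw [if_pos ⟨hz', ha⟩]
          ring
        rw [h6] at h5
        exact h5)
      (x := z) hzH
    have hzne : rr z / (2 * K * H926.PathChain.C1 kk (κ / 62)) = rr z / (2 * K *
      H926.PathChain.C1 kk (κ / 62)) := rfl
    refine ⟨rr z / (2 * K * H926.PathChain.C1 kk (κ / 62)), Om', hf, P', Y, ⟨h1, ?_, ?_, ?_⟩, ?_⟩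
    · intro i hi1 hi h hh
      rw [H957.Ex_lawOf]
      obtain ⟨i', rfl⟩ : ∃ i', i = i' + 1 := ⟨i - 1, by omega⟩
      exact h2 (i' + 1) hi h fun Y Y' hY => hh Y Y' fun v hv => hY v (by rw [hB]; exact hv)
    · intro i _ hi ω hω v hv
      exact h3 i hi ω hω v hv
    · intro f hf01 hfd
      have h5 := h4 fun Y => decide (f Y = 1)
      refine h5.trans (le_of_eq (sum_congr rfl fun ω _ => ?_))
      by_cases hω : P' ω = 0
      · rw [hω, zero_mul, zero_mul]
      congr 1
      have h6 : f (Y 0 ω) = f (Y 1 ω) := hfd _ _ fun v hv => h3 0 hp.pos ω hω v hv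
      rw [h6]
      rcases hf01 (Y 1 ω) with h7 | h7 <;> rw [h7] <;> cases Y N ω z <;> simp
    · have h5 : H926.PathChain.C1 kk (κ / 62) * (2 * K * (rr z / (2 * K *
          H926.PathChain.C1 kk (κ / 62)))) = rr z := by
        field_simp
      rw [h5]
      exact le_inf' _ _ fun a ha => hr a ha

end

/-- **[N-OUT]** from the slots -/
theorem nOut (hS : SlotStmt) : NOutStmt := by
  classical
  intro k hk
  obtain ⟨L, hL⟩ := hS k
  have hth := H926.PathChain.thSeq_pos hk (k - 1)
  have hkR : (0 : ℝ) < (k : ℝ) := by exact_mod_cast hk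
  obtain ⟨κ, hκ, H⟩ := exists_bproc k L
    (ε := H926.PathChain.thSeq k (k - 1) / 4 / (k : ℝ)) (by positivity)
  refine ⟨H926.PathChain.C1 k (κ / 62), H926.PathChain.C1_pos hk (by positivity), ?_⟩
  intro n T Z d hd
  obtain ⟨η, X, hs⟩ := hL n T Z d hd
  obtain ⟨R⟩ := H (Fin T) (Fin n) (dt Z η) Z.up (fun t => (t : ℕ)) (fun t => Z.up t = t) Z.S η
    (Cf Z X) (fun t p q => dt_nonneg t p q) (fun t _ p q => dt_mono t p q)
    (fun t ht => (lt_of_le_of_ne (Z.up_le t) ht : Z.up t < t)) Z.card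
    (fun t j p q => le_dt (H684.Elim.Desc.refl _ _) j p q)
    (fun t ht j => hs.ren t ht j)
    (by
      intro t p q hpos
      by_cases h : p ∈ Z.H t ∧ q ∈ Z.S t
      · obtain ⟨j, hj⟩ := hs.cap t p h.1 q h.2
        refine ⟨j, ?_⟩
        unfold Cf
        rw [if_pos h]
        exact hj
      · exfalso
        unfold Cf at hpos
        rw [if_neg h] at hpos
        exact lt_irrefl _ hpos)
  refine nlaw_of hd hs hκ hk le_rfl ?_ R
  field_simp
  exact le_rfl

end Vale.Agent.P235.K5.H320
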