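import Vale.Agent.P235.K5.Glue

/-!
# K5, row [N-OUT]: what the contraction (TREE) and the monitors (MON) have to deliver
-/

namespace Vale.Agent.P235.K5.H320

open Finset Vale.Agent.P235.K5

/-- **The slots.** `X t a z` is the contracted distance from `a` (in the adhesion of `t`) to `z`;
`η t j` is the content of the slot `j` at the torso `t`. -/
structure Slots {n T k : ℕ} (Z : Tor n T k) (d : Fin n → Fin n → ℝ) (L : ℕ)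
    (η : Fin T → Fin L → Fin n → ℝ) (X : Fin T → Fin n → Fin n → ℝ) : Prop where
  lip : ∀ t j p q, |η t j p - η t j q| ≤ d p q
  ren : ∀ t, Z.up t ≠ t → ∀ j, η t j = η (Z.up t) j ∨ ∀ a ∈ Z.S t, η t j a = 0
  nonneg : ∀ t, ∀ z ∈ Z.H t, ∀ a ∈ Z.S t, 0 ≤ X t a z
  hat : ∀ b t, Z.tree.Desc b t → ∀ j, ∀ z ∈ Z.H t, ∀ a ∈ Z.S t, |η b j z - η b j a| ≤ X t a z
  cap : ∀ t, ∀ z ∈ Z.H t, ∀ a ∈ Z.S t, ∃ j, 1 / 62 * X t a z ≤ |η t j z - η t j a|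
  rad : ∀ b t, Z.tree.Desc b t → ∀ z ∈ Z.H t, ∀ a ∈ Z.S t, ∀ s ∈ Z.S b,
    ∃ s' ∈ Z.S b, d z s' ≤ d a s + X t a z

/-- [SLOTS] from TREE and MON: the number of slots depends on `k` only -/
def SlotStmt : Prop :=
  ∀ k : ℕ, ∃ L : ℕ, ∀ (n T : ℕ) (Z : Tor n T k) (d : Fin n → Fin n → ℝ), Z.Sep d →
    ∃ (η : Fin T → Fin L → Fin n → ℝ) (X : Fin T → Fin n → Fin n → ℝ), Slots Z d L η X

/-- [N-OUT] **Theorem N** -/
def NOutStmt : Prop :=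
  ∀ k : ℕ, 1 ≤ k → ∃ C1 : ℝ, 0 < C1 ∧ ∀ (n T : ℕ) (Z : Tor n T k) (d : Fin n → Fin n → ℝ),
    Z.Sep d → Z.NLaw d C1

end Vale.Agent.P235.K5.H320
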