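import Vale.Agent.P235.K5.H320.NOut
import Vale.Agent.P235.K5.H838.Inst

/-!
# K5, row [SLOTS]: the plug of the contraction and the monitors
-/

namespace Vale.Agent.P235.K5.H320

open Finset Vale.Agent.P235.K5 Vale.Agent.P235.K5.H838 Vale.Agent.P235.H732

section

variable {n T k : ℕ} (Z : Tor n T k) {d : Fin n → Fin n → ℝ}

/-- the parent as an option -/
def parO (t : Fin T) : Option (Fin T) := if Z.up t = t then none else some (Z.up t)

variable {Z}

theorem parO_some {t s : Fin T} : parO Z t = some s ↔ Z.up t ≠ t ∧ Z.up t = s := by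
  unfold parO
  split_ifs with h
  · simp [h]
  · simp [h]

theorem parO_up {t : Fin T} (h : Z.up t ≠ t) : parO Z t = some (Z.up t) :=
  parO_some.2 ⟨h, rfl⟩

theorem anc_of_desc {b t : Fin T} (h : Z.tree.Desc b t) : Anc (parO Z) b t := by
  obtain ⟨j, hj⟩ := h
  induction j generalizing t with
  | zero =>
    have : t = b := hj
    rw [this]
    exact Anc.refl
  | succ j ih =>
    rw [Function.iterate_succ_apply] at hj
    have h1 := ih hj
    have e : Z.tree.par t = Z.up t := rfl
    rw [e] at h1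
    by_cases h2 : Z.up t = t
    · rw [h2] at h1; exact h1
    · exact Anc.step (parO_up h2) h1

theorem pm_of (hd : Z.Sep d) : PM d where
  self := hd.self
  symm := hd.symm
  tri := hd.tri

theorem not_below_of_lt {t : Fin T} {q : Fin n} (h : Z.tor q < t) : ¬ Z.Below t q := fun h1 =>
  absurd (H684.Elim.Desc.le h1) (not_le.2 h)

theorem below_self {t : Fin T} {v : Fin n} (h : Z.tor v = t) : Z.Below t v := by
  show Z.tree.Desc t (Z.tor v)
  rw [h]
  exact H684.Elim.Desc.refl _ _

theorem below_par {t : Fin T} {v : Fin n} (h : Z.Below t v) : Z.Below (Z.up t) v := by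
  obtain ⟨j, hj⟩ := h
  refine ⟨j + 1, ?_⟩
  rw [Function.iterate_succ_apply', hj]
  rfl

/-- the tree of `H838` with the adhesion `{r0}` at the root -/
noncomputable def tr (hd : Z.Sep d) (r0 : Fin n) (hr0 : (Z.tor r0).val = 0) :
    Tree (Fin T) (Fin n) d where
  par := parO Z
  par_lt := by
    intro t s h
    rw [parO_some] at h
    rw [← h.2]
    exact lt_of_le_of_ne (Z.up_le t) h.1
  S := fun t => if Z.up t = t then {r0} else Z.S t
  U := fun t => if Z.up t = t then Set.univ else {v | Z.Below t v ∨ v ∈ Z.S t}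
  S_sub := by
    intro t a ha
    by_cases h : Z.up t = t
    · rw [if_pos h]; trivial
    · rw [if_neg h] at ha ⊢
      exact Or.inr ha
  U_par := by
    intro t s h
    rw [parO_some] at h
    obtain ⟨h1, rfl⟩ := h
    intro v hv
    rw [if_neg h1] at hv
    by_cases h2 : Z.up (Z.up t) = Z.up t
    · rw [if_pos h2]; trivial
    · rw [if_neg h2]
      rcases hv with hv | hv
      · exact Or.inl (below_par hv)
      · rcases Z.sub t v hv with h3 | h3
        · exact Or.inr h3
        · exact Or.inl (below_self h3)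
  sep := by
    intro t s h p hp q hq
    rw [parO_some] at h
    obtain ⟨h1, rfl⟩ := h
    rw [if_neg h1] at hp ⊢
    have hlt : Z.up t < t := lt_of_le_of_ne (Z.up_le t) h1
    rcases hp with hp | hp
    · have hnb : ¬ Z.Below t q := by
        by_cases h2 : Z.up (Z.up t) = Z.up t
        · rw [if_pos h2, mem_singleton] at hq
          rw [hq]
          refine not_below_of_lt ?_
          rw [Fin.lt_def, hr0]
          rw [Fin.lt_def] at hlt
          omega
        · rw [if_neg h2] at hq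
          exact not_below_of_lt ((Z.low _ _ hq).trans hlt)
      obtain ⟨a, ha, h3⟩ := hd.sep t p q hp hnb
      exact ⟨a, ha, h3.ge⟩
    · exact ⟨p, hp, by rw [hd.self, zero_add]⟩

theorem tr_S (hd : Z.Sep d) (r0 : Fin n) (hr0 : (Z.tor r0).val = 0) {t : Fin T}
    (h : Z.up t ≠ t) : (tr hd r0 hr0).S t = Z.S t := if_neg h

theorem up_ne_of_mem {t : Fin T} {a : Fin n} (ha : a ∈ Z.S t) : Z.up t ≠ t := by
  intro h
  rw [Z.root t h] at ha
  simp at ha

theorem mem_U (hd : Z.Sep d) (r0 : Fin n) (hr0 : (Z.tor r0).val = 0) {t : Fin T} {z : Fin n}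
    (hz : z ∈ Z.H t) : z ∈ (tr hd r0 hr0).U t := by
  show z ∈ (if Z.up t = t then Set.univ else {v | Z.Below t v ∨ v ∈ Z.S t})
  by_cases h : Z.up t = t
  · rw [if_pos h]; trivial
  · rw [if_neg h]
    unfold Tor.H at hz
    rw [mem_union, mem_filter] at hz
    rcases hz with hz | hz
    · exact Or.inr hz
    · exact Or.inl (below_self hz.2)

theorem slots_of (hd : Z.Sep d) (r0 : Fin n) (hr0 : (Z.tor r0).val = 0) :
    ∃ (η : Fin T → Fin (H360.Nodes.LL (k + 1) ((k + 1) * ((k + 1) * (k + 1)) + 1)) → Fin n → ℝ)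
      (X : Fin T → Fin n → Fin n → ℝ), Slots Z d _ η X := by
  classical
  have hpm := pm_of hd
  set D := tr hd r0 hr0 with hD
  have hSroot : ∀ t, Z.up t = t → D.S t = {r0} := fun t h => if_pos h
  have hSne : ∀ t, Z.up t ≠ t → D.S t = Z.S t := fun t h => if_neg h
  have hcard : ∀ t, (D.S t).card ≤ k + 1 := by
    intro t
    by_cases h : Z.up t = t
    · rw [hSroot t h, card_singleton]; omega
    · rw [hSne t h]; exact (Z.card t).trans (Nat.le_succ k)
  have hne : ∀ t, (D.S t).Nonempty := by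
    intro t
    by_cases h : Z.up t = t
    · rw [hSroot t h]; exact ⟨r0, mem_singleton_self _⟩
    · rw [hSne t h]; exact S_ne hd h
  obtain ⟨M, hM⟩ := Finite.exists_le (fun x : Fin n × Fin n => d x.1 x.2)
  have hM' : ∀ p q, d p q ≤ M := fun p q => hM (p, q)
  obtain ⟨η, h1, h2, h3, _, h5⟩ := D.slots hpm hcard hne M hM'
  have hL : 0 < H360.Nodes.LL (k + 1) ((k + 1) * ((k + 1) * (k + 1)) + 1) := by
    unfold H360.Nodes.LL; positivity
  refine ⟨η, D.X, ?_⟩
  have hmem : ∀ {t : Fin T} {a : Fin n}, a ∈ Z.S t → a ∈ D.S t := fun {t a} ha => by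
    rw [hSne t (up_ne_of_mem ha)]; exact ha
  refine ⟨h1, ?_, ?_, ?_, ?_, ?_⟩
  · intro t ht j
    rcases h3 t j with ⟨s, hs, h⟩ | h
    · left
      have h4 : parO Z t = some s := hs
      rw [parO_some] at h4
      rw [h4.2]; exact h
    · right
      intro a ha
      exact h a (hmem ha)
  · intro t z _ a ha
    exact XX_nonneg hpm (D.rho_sub hpm t) (hmem ha) z
  · intro b t hbt j z hz a ha
    have hanc : Anc D.par b t := anc_of_desc hbt
    have hzU : z ∈ D.U t := mem_U hd r0 hr0 hz
    have haU : a ∈ D.U t := D.S_sub t a (hmem ha)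
    refine (h2 b j z a).trans ?_
    rw [D.dt_of_mem (D.U_anc hanc hzU) (D.U_anc hanc haU)]
    exact D.X_point hpm hanc (hmem ha) hzU
  · intro t z _ a ha
    have h0 : 0 ≤ D.X t a z := XX_nonneg hpm (D.rho_sub hpm t) (hmem ha) z
    rcases h0.eq_or_lt with h | h
    · refine ⟨⟨0, hL⟩, ?_⟩
      rw [← h, mul_zero]
      exact abs_nonneg _
    · obtain ⟨j, hj⟩ := h5 t z a (hmem ha) h
      exact ⟨j, by linarith⟩
  · intro b t hbt z hz a ha s hs
    have hanc : Anc D.par b t := anc_of_desc hbt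
    have hzU : z ∈ D.U t := mem_U hd r0 hr0 hz
    obtain ⟨s', hs', h⟩ := D.F_near (hne b) z
    rw [hSne b (up_ne_of_mem hs)] at hs'
    refine ⟨s', hs', ?_⟩
    have h4 := (abs_le.1 (D.F_le_E hpm b z a)).2
    have h6 := D.X_point hpm hanc (hmem ha) hzU
    have h7 : D.F b a ≤ d a s := D.F_le (hmem hs) a
    linarith

end

/-- **[SLOTS]** -/
theorem slotStmt : SlotStmt := by
  intro k
  refine ⟨H360.Nodes.LL (k + 1) ((k + 1) * ((k + 1) * (k + 1)) + 1), ?_⟩
  intro n T Z d hd
  rcases Nat.eq_zero_or_pos T with hT | hT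
  · subst hT
    refine ⟨fun t => t.elim0, fun t => t.elim0, ?_⟩
    exact ⟨fun t => t.elim0, fun t => t.elim0, fun t => t.elim0, fun _ t => t.elim0,
      fun t => t.elim0, fun _ t => t.elim0⟩
  · obtain ⟨r0, hr0⟩ := Z.surj ⟨0, hT⟩
    exact slots_of hd r0 (by rw [hr0])

/-- **Theorem N**: laws of the torsos with fresh couplings, for every tree of bags of any size. -/
theorem nthm : ∀ k : ℕ, 1 ≤ k → ∃ C1 : ℝ, 0 < C1 ∧ ∀ (n T : ℕ) (Z : Tor n T k)
    (d : Fin n → Fin n → ℝ), Z.Sep d → Z.NLaw d C1 := nOut slotStmt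

end Vale.Agent.P235.K5.H320
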